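import Vale.Agent.P291.H598.Transfer
import Vale.Agent.P291.R6Blk

/-!
# P291, block R7: auxiliary lemmas
-/

set_option linter.unusedSectionVars false
set_option linter.unusedVariables false

open MvPolynomial

namespace Vale.Agent.P291

namespace R7

section one

variable {I E B Λ : Type*} [Fintype E] [DecidableEq I] [Fintype B] [DecidableEq B] [CommRing Λ]
  [IsDomain Λ]
variable (Q : QD I E B Λ)

theorem mem_cb {V : Finset (Option B)} {b : B} : b ∈ cb V ↔ some b ∉ V := by simp [cb]

theorem db_cb_add (V : Finset (Option B)) : Q.db (bx V) + Q.db (cb V) = Q.db Finset.univ := by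
  funext i
  simp only [Pi.add_apply, QD.db]
  rw [← Finset.card_union_of_disjoint]
  · congr 1
    ext b
    simp only [Finset.mem_union, Finset.mem_filter, bx, cb, Finset.mem_univ, true_and]
    tauto
  · rw [Finset.disjoint_left]
    intro b h1 h2
    simp only [Finset.mem_filter, bx, cb, Finset.mem_univ, true_and] at h1 h2
    exact h2.1 h1.1

theorem card_db (U : Finset B) (i : I) :
    (Finset.univ.filter fun b => (Q.vx b, decide (b ∈ U)) = (i, true)).card = Q.db U i := by
  rw [QD.db]; congr 1; ext b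
  simp only [Finset.mem_filter, Finset.mem_univ, true_and, Prod.mk.injEq, decide_eq_true_eq]
  tauto

theorem card_db' (U : Finset B) (i : I) :
    (Finset.univ.filter fun b => (Q.vx b, decide (b ∈ U)) = (i, false)).card + Q.db U i =
      Q.db Finset.univ i := by
  rw [QD.db, QD.db, ← Finset.card_union_of_disjoint]
  · congr 1; ext b
    simp only [Finset.mem_filter, Finset.mem_univ, true_and, Prod.mk.injEq, Finset.mem_union,
      decide_eq_false_iff_not]
    tauto
  · rw [Finset.disjoint_left]
    intro b h1 h2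
    simp only [Finset.mem_filter, Finset.mem_univ, true_and, Prod.mk.injEq,
      decide_eq_false_iff_not] at h1 h2
    exact h1.2 h2.1

theorem orb_of_types {V V' : Finset (Option B)} (h1 : none ∈ V ↔ none ∈ V')
    (h2 : Q.db (cb V) = Q.db (cb V')) : Q.orb V V' := by
  classical
  have hc : ∀ c : I × Bool, Nonempty
      ({a // (fun b => (Q.vx b, decide (b ∈ cb V))) a = c} ≃
        {b // (fun b => (Q.vx b, decide (b ∈ cb V'))) b = c}) := by
    rintro ⟨i, t⟩
    rw [← Fintype.card_eq, Fintype.card_subtype, Fintype.card_subtype]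
    show (Finset.univ.filter fun b => (Q.vx b, decide (b ∈ cb V)) = (i, t)).card =
      (Finset.univ.filter fun b => (Q.vx b, decide (b ∈ cb V')) = (i, t)).card
    cases t with
    | true => rw [card_db, card_db, h2]
    | false =>
      have e1 := card_db' Q (cb V) i
      have e2 := card_db' Q (cb V') i
      rw [h2] at e1
      omega
  let ee : ∀ c : I × Bool, {a // (fun b => (Q.vx b, decide (b ∈ cb V))) a = c} ≃
        {b // (fun b => (Q.vx b, decide (b ∈ cb V'))) b = c} := fun c => (hc c).some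
  let σ : Equiv.Perm B := Equiv.ofFiberEquiv ee
  have hσ : ∀ b, (Q.vx (σ b), decide (σ b ∈ cb V')) = (Q.vx b, decide (b ∈ cb V)) := fun b =>
    Equiv.ofFiberEquiv_map ee b
  refine ⟨σ, fun b => (Prod.mk.inj (hσ b)).1, ?_⟩
  ext o
  rcases o with _ | b
  · rw [R6.none_mem_vact, h1]
  · rw [R6.some_mem_vact]
    have h3 := (Prod.mk.inj (hσ (σ⁻¹ b))).2
    rw [← Equiv.Perm.mul_apply, mul_inv_cancel, Equiv.Perm.one_apply] at h3
    have h4 : (b ∈ cb V') ↔ σ⁻¹ b ∈ cb V := by
      by_cases hb : b ∈ cb V' <;> simp only [hb, decide_true, decide_false] at h3 <;>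
        simp_all
    rw [mem_cb, mem_cb] at h4
    tauto

/-- tuple sums with prescribed types and dimensions are spans of products -/
theorem MT_types {k : ℕ} (hk : 0 < k) (ty : Fin k → Bool) (d : Fin k → I → ℕ)
    {τ : (Fin k → Finset (Option B)) → SS B Λ} (hτ : τ ∈ Q.Dec k)
    (hs : ∀ V, τ V ≠ 0 → ∀ j, (none ∈ V j ↔ ty j = true) ∧ Q.db (cb (V j)) = d j) :
    Q.MT k τ ∈ Submodule.span Λ {z | ∃ G : Fin k → Finset (Option B) → SS B Λ,
      (∀ j, G j ∈ Q.Eqv) ∧
      (∀ j V, G j V ≠ 0 → (none ∈ V ↔ ty j = true) ∧ Q.db (cb V) = d j) ∧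
      z = ∏ j, Q.M (G j)} := by
  classical
  let χ : Fin k → Finset (Option B) → SS B Λ := fun j V =>
    if (none ∈ V ↔ ty j = true) ∧ Q.db (cb V) = d j then (1 : SS B Λ) else 0
  have hχ : ∀ j, χ j ∈ Q.Eqv := by
    intro j
    have := R6.ind_mem_Eqv (Λ := Λ) Q (ty j = true) (d j)
    convert this
  have hχ0 : ∀ j V, χ j V ≠ 0 → (none ∈ V ↔ ty j = true) ∧ Q.db (cb V) = d j := by
    intro j V h
    by_contra h'
    exact h (if_neg h')
  have hadd : ∀ τ τ' : (Fin k → Finset (Option B)) → SS B Λ,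
      Q.MT k (τ + τ') = Q.MT k τ + Q.MT k τ' := by
    intro τ τ'
    simp only [QD.MT, Pi.add_apply, toK_add, add_mul, AddMonoidAlgebra.single_add,
      Finset.sum_add_distrib]
  have hzero : Q.MT k (0 : (Fin k → Finset (Option B)) → SS B Λ) = 0 := by
    simp [QD.MT]
  have hsmul : ∀ (c : Λ) (τ : (Fin k → Finset (Option B)) → SS B Λ),
      Q.MT k (c • τ) = c • Q.MT k τ := by
    intro c τ
    simp only [QD.MT, Pi.smul_apply, Finset.smul_sum, AddMonoidAlgebra.smul_single]
    refine Finset.sum_congr rfl fun V _ => ?_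
    congr 1
    rw [toK, toK, Algebra.smul_def, Algebra.smul_def, map_mul, mul_assoc,
      ← IsScalarTower.algebraMap_apply]
  have key : ∀ τ' ∈ Q.Dec k, Q.MT k (fun V => (∏ j, χ j (V j)) * τ' V) ∈
      Submodule.span Λ {z | ∃ G : Fin k → Finset (Option B) → SS B Λ,
      (∀ j, G j ∈ Q.Eqv) ∧
      (∀ j V, G j V ≠ 0 → (none ∈ V ↔ ty j = true) ∧ Q.db (cb V) = d j) ∧
      z = ∏ j, Q.M (G j)} := by
    intro τ' hτ'
    induction hτ' using Submodule.span_induction with
    | mem x hx =>
      obtain ⟨r, hr, F, hF, rfl⟩ := hx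
      obtain ⟨k, rfl⟩ := Nat.exists_eq_succ_of_ne_zero hk.ne'
      let F' : Fin (k + 1) → Finset (Option B) → SS B Λ :=
        Fin.cons (fun V => r * F 0 V) (fun j => F j.succ)
      have hF' : ∀ j, F' j ∈ Q.Eqv := by
        intro j
        refine Fin.cases ?_ (fun j => ?_) j
        · intro σ hσ V
          show r * F 0 (vact σ V) = rename σ (r * F 0 V)
          rw [map_mul, hF 0 σ hσ V, hr σ hσ]
        · exact hF j.succ
      have h1 : (fun V : Fin (k + 1) → Finset (Option B) =>
          (∏ j, χ j (V j)) * (r * ∏ j, F j (V j))) =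
          fun V => 1 * ∏ j, (χ j * F' j) (V j) := by
        funext V
        simp only [Pi.mul_apply, Finset.prod_mul_distrib, one_mul]
        congr 1
        rw [Fin.prod_univ_succ, Fin.prod_univ_succ]
        simp only [F', Fin.cons_zero, Fin.cons_succ]
        ring
      rw [h1, MT_pure]
      refine Submodule.subset_span ⟨fun j => χ j * F' j, fun j => mul_mem (hχ j) (hF' j),
        fun j V h => hχ0 j V fun h' => h ?_, ?_⟩
      · show χ j V * F' j V = 0
        rw [h', zero_mul]
      have h2 : (QD.cst 1 : AA B Λ) = 1 := by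
        rw [QD.cst, toK, map_one, AddMonoidAlgebra.one_def]
      rw [h2, one_mul]
    | zero =>
      have : (fun V : Fin k → Finset (Option B) => (∏ j, χ j (V j)) *
          (0 : (Fin k → Finset (Option B)) → SS B Λ) V) = 0 := by
        funext V; simp
      rw [this, hzero]; exact zero_mem _
    | add x y _ _ hx hy =>
      have : (fun V : Fin k → Finset (Option B) => (∏ j, χ j (V j)) * (x + y) V) =
          (fun V => (∏ j, χ j (V j)) * x V) + fun V => (∏ j, χ j (V j)) * y V := by
        funext V; simp [mul_add]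
      rw [this, hadd]; exact add_mem hx hy
    | smul c x _ hx =>
      have : (fun V : Fin k → Finset (Option B) => (∏ j, χ j (V j)) * (c • x) V) =
          c • fun V => (∏ j, χ j (V j)) * x V := by
        funext V; simp
      rw [this, hsmul]; exact Submodule.smul_mem _ _ hx
  have h : τ = fun V => (∏ j, χ j (V j)) * τ V := by
    funext V
    by_cases h0 : τ V = 0
    · simp [h0]
    · have : ∏ j, χ j (V j) = (1 : SS B Λ) :=
        Finset.prod_eq_one fun j _ => if_pos (hs V h0 j)
      rw [this, one_mul]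
  rw [h]
  exact key τ hτ

/-- power sums with weights -/
noncomputable def pww (w : B → ℕ) (n : ℕ) (i : I) : SS B Λ :=
  ∑ b ∈ Finset.univ.filter (fun b => Q.vx b = i), (w b : SS B Λ) * X b ^ n

theorem sum_pws {k : ℕ} (S : Fin k → Finset B) (n : ℕ) (i : I) :
    ∑ j, Q.pws n i (S j) = pww (Λ := Λ) Q (wS S) n i := by
  simp only [QD.pws, pww]
  have h : ∀ j, ∑ b ∈ (S j).filter (fun b => Q.vx b = i), (X b ^ n : SS B Λ) =
      ∑ b ∈ Finset.univ.filter (fun b => Q.vx b = i), if b ∈ S j then X b ^ n else 0 := by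
    intro j
    rw [← Finset.sum_filter, Finset.filter_filter]
    refine Finset.sum_congr ?_ fun _ _ => rfl
    ext b
    simp only [Finset.mem_filter, Finset.mem_univ, true_and]
    tauto
  rw [Finset.sum_congr rfl fun j _ => h j, Finset.sum_comm]
  refine Finset.sum_congr rfl fun b _ => ?_
  rw [wS, Nat.cast_sum, Finset.sum_mul]
  refine Finset.sum_congr rfl fun j _ => ?_
  split_ifs <;> simp

theorem sum_db {k : ℕ} (S : Fin k → Finset B) (i : I) :
    (∑ j, Q.db (S j)) i = ∑ b ∈ Finset.univ.filter (fun b => Q.vx b = i), wS S b := by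
  rw [Finset.sum_apply]
  simp only [wS, QD.db]
  rw [Finset.sum_comm]
  refine Finset.sum_congr rfl fun j _ => ?_
  rw [← Finset.sum_filter, Finset.filter_filter, Finset.sum_const, smul_eq_mul, mul_one]
  congr 1
  ext b
  simp only [Finset.mem_filter, Finset.mem_univ, true_and]
  tauto

theorem mem_DA_aeval {k : ℕ} {ι : Type*} (y : (Fin k → Finset (Option B)) → ι → SS B Λ)
    (hy : ∀ p, (fun V => y V p) ∈ Q.DA k) (q : MvPolynomial ι Λ) :
    (fun V => aeval (y V) q) ∈ Q.DA k := by
  induction q using MvPolynomial.induction_on with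
  | C a =>
    have : (fun V : Fin k → Finset (Option B) => aeval (y V) (C a : MvPolynomial ι Λ)) =
        algebraMap Λ _ a := by
      funext V
      rw [aeval_C]; rfl
    rw [this]; exact Subalgebra.algebraMap_mem _ _
  | add p q hp hq =>
    have : (fun V : Fin k → Finset (Option B) => aeval (y V) (p + q)) =
        (fun V => aeval (y V) p) + fun V => aeval (y V) q := by
      funext V; rw [map_add]; rfl
    rw [this]; exact add_mem hp hq
  | mul_X p i hp =>
    have : (fun V : Fin k → Finset (Option B) => aeval (y V) (p * X i)) =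
        (fun V => aeval (y V) p) * fun V => y V i := by
      funext V; rw [map_mul, aeval_X]; rfl
    rw [this]; exact mul_mem hp (hy i)

theorem pwv_mem_DA {k : ℕ} (p : Option (Fin k) × ℕ × I) : (fun V => Q.pwv V p) ∈ Q.DA k :=
  Algebra.subset_adjoin ⟨p, rfl⟩

end one

section two

variable {I E E' B B' Λ : Type*} [Fintype E] [Fintype E'] [DecidableEq I] [Fintype B]
  [DecidableEq B] [Fintype B'] [DecidableEq B'] [CommRing Λ] [IsDomain Λ]
variable (Q' : QD I E' B' Λ) (Q : QD I E B Λ)

theorem exists_e (w : B → ℕ)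
    (hw : ∀ i, ∑ b ∈ Finset.univ.filter (fun b => Q.vx b = i), w b = Q'.db Finset.univ i) :
    ∃ e : B' ≃ (b : B) × Fin (w b), ∀ b', Q.vx (io e b') = Q'.vx b' := by
  classical
  have hc : ∀ i : I, Nonempty ({a : B' // Q'.vx a = i} ≃
      {x : (b : B) × Fin (w b) // Q.vx x.1 = i}) := by
    intro i
    rw [← Fintype.card_eq, Fintype.card_subtype, Fintype.card_subtype]
    have h1 : (Finset.univ.filter fun x : B' => Q'.vx x = i).card = Q'.db Finset.univ i := rfl
    rw [h1, ← hw i]
    rw [Finset.card_filter, Fintype.sum_sigma, Finset.sum_filter]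
    refine Finset.sum_congr rfl fun b _ => ?_
    by_cases h : Q.vx b = i
    · simp [h]
    · simp [h]
  let ee : ∀ i : I, {a : B' // Q'.vx a = i} ≃
      {x : (b : B) × Fin (w b) // (fun x : (b : B) × Fin (w b) => Q.vx x.1) x = i} :=
    fun c => (hc c).some
  exact ⟨Equiv.ofFiberEquiv ee, fun b' => Equiv.ofFiberEquiv_map ee b'⟩

variable {Q' Q} {w : B → ℕ} {e : B' ≃ (b : B) × Fin (w b)}

theorem rename_pws_univ (hv : ∀ b', Q.vx (io e b') = Q'.vx b') (n : ℕ) (i : I) :
    rename (io e) (Q'.pws n i Finset.univ : SS B' Λ) = pww Q w n i := by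
  classical
  rw [QD.pws, pww, map_sum]
  simp only [map_pow, rename_X]
  rw [Finset.sum_filter, Finset.sum_filter]
  have h1 : ∀ b', (if Q'.vx b' = i then (X (io e b') ^ n : SS B Λ) else 0) =
      (fun x : (b : B) × Fin (w b) => if Q.vx x.1 = i then (X x.1 ^ n : SS B Λ) else 0) (e b') := by
    intro b'
    show _ = if Q.vx (io e b') = i then (X (io e b') ^ n : SS B Λ) else 0
    rw [hv]
  rw [Fintype.sum_equiv e _ (fun x : (b : B) × Fin (w b) =>
    if Q.vx x.1 = i then (X x.1 ^ n : SS B Λ) else 0) h1, Fintype.sum_sigma]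
  refine Finset.sum_congr rfl fun b _ => ?_
  simp only [Finset.sum_const, Finset.card_univ, Fintype.card_fin]
  split_ifs <;> simp

theorem rename_pws_lift (hv : ∀ b', Q.vx (io e b') = Q'.vx b') {k : ℕ} {S : Fin k → Finset B}
    (hS : wS S = w) (j : Fin k) (n : ℕ) (i : I) :
    rename (io e) (Q'.pws n i (liftS e S j) : SS B' Λ) = Q.pws n i (S j) := by
  rw [QD.pws, QD.pws, map_sum]
  simp only [map_pow, rename_X]
  refine Finset.sum_bij (fun b' _ => io e b') ?_ ?_ ?_ ?_
  · intro b' hb
    rw [Finset.mem_filter, mem_liftS] at hb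
    rw [Finset.mem_filter, hv]
    exact ⟨hb.1.2, hb.2⟩
  · intro b hb b' hb' h
    rw [Finset.mem_filter, mem_liftS] at hb hb'
    exact main_inj e hb.1.1 hb'.1.1 h
  · intro b hb
    rw [Finset.mem_filter] at hb
    have hp : 0 < w b := hS ▸ pos_of_mem hb.1
    refine ⟨mc e b hp, ?_, io_mc e b hp⟩
    rw [Finset.mem_filter, mem_liftS, io_mc, ← hv, io_mc]
    exact ⟨⟨main_mc e b hp, hb.1⟩, hb.2⟩
  · intro b hb; rfl

theorem db_lift (hv : ∀ b', Q.vx (io e b') = Q'.vx b') {k : ℕ} {S : Fin k → Finset B}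
    (hS : wS S = w) (j : Fin k) : Q'.db (liftS e S j) = Q.db (S j) := by
  funext i
  rw [QD.db, QD.db]
  refine Finset.card_bij (fun b' _ => io e b') ?_ ?_ ?_
  · intro b' hb
    rw [Finset.mem_filter, mem_liftS] at hb
    rw [Finset.mem_filter, hv]
    exact ⟨hb.1.2, hb.2⟩
  · intro b hb b' hb' h
    rw [Finset.mem_filter, mem_liftS] at hb hb'
    exact main_inj e hb.1.1 hb'.1.1 h
  · intro b hb
    rw [Finset.mem_filter] at hb
    have hp : 0 < w b := hS ▸ pos_of_mem hb.1
    refine ⟨mc e b hp, ?_, io_mc e b hp⟩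
    rw [Finset.mem_filter, mem_liftS, io_mc, ← hv, io_mc]
    exact ⟨⟨main_mc e b hp, hb.1⟩, hb.2⟩

end two

end R7

end Vale.Agent.P291
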