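import Vale.Agent.P291.RCore

/-!
# P291, block R7: tuples given by complements, and matched tuples
-/

set_option linter.unusedSectionVars false
set_option linter.unusedVariables false

open MvPolynomial

namespace Vale.Agent.P291

namespace R7

section tuples

variable {B : Type*} [Fintype B] [DecidableEq B] {k : ℕ}

/-- tuple of subsets with given types and complements -/
def mkV (ty : Fin k → Bool) (S : Fin k → Finset B) : Fin k → Finset (Option B) :=
  fun j => Finset.univ.filter fun o => (o.elim (ty j) fun b => decide (b ∉ S j)) = true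

theorem none_mem_mkV (ty : Fin k → Bool) (S : Fin k → Finset B) (j : Fin k) :
    none ∈ mkV ty S j ↔ ty j = true := by simp [mkV]

theorem some_mem_mkV (ty : Fin k → Bool) (S : Fin k → Finset B) (j : Fin k) (b : B) :
    some b ∈ mkV ty S j ↔ b ∉ S j := by simp [mkV]

theorem cb_mkV (ty : Fin k → Bool) (S : Fin k → Finset B) (j : Fin k) :
    cb (mkV ty S j) = S j := by
  ext b; simp [cb, some_mem_mkV]

theorem mkV_cb (ty : Fin k → Bool) (V : Fin k → Finset (Option B))
    (h : ∀ j, none ∈ V j ↔ ty j = true) : mkV ty (fun j => cb (V j)) = V := by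
  funext j; ext o
  rcases o with _ | b
  · rw [none_mem_mkV, h]
  · rw [some_mem_mkV]; simp [cb]

/-- multiplicity of a box in a tuple -/
def wS (S : Fin k → Finset B) (b : B) : ℕ := ∑ j, if b ∈ S j then 1 else 0

theorem ext_lamV_none (V : Finset (Option B)) : ext (lamV V) none = 0 := rfl

theorem ext_lamV_some (ty : Fin k → Bool) (S : Fin k → Finset B) (j : Fin k) (b : B) :
    ext (lamV (mkV ty S j)) (some b) =
      (if ty j then 0 else 1) - (if b ∈ S j then 1 else 0) := by
  show lamV (mkV ty S j) b = _
  rw [lamV]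
  simp only [some_mem_mkV, none_mem_mkV]
  by_cases h : b ∈ S j <;> by_cases h' : ty j = true <;> simp [h, h']

theorem sum_lamV_mkV (ty : Fin k → Bool) (S : Fin k → Finset B) (b : B) :
    (∑ j, lamV (mkV ty S j)) b = (∑ j, if ty j then (0 : ℤ) else 1) - wS S b := by
  rw [Finset.sum_apply, wS]
  push_cast
  rw [← Finset.sum_sub_distrib]
  exact Finset.sum_congr rfl fun j _ => ext_lamV_some ty S j b

theorem ext_sum (V : Fin k → Finset (Option B)) (o : Option B) :
    ext (∑ j, lamV (V j)) o = ∑ j, ext (lamV (V j)) o := by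
  rcases o with _ | b
  · simp [ext]
  · show (∑ j, lamV (V j)) b = _
    rw [Finset.sum_apply]; rfl

theorem kx_eq (V : Fin k → Finset (Option B)) (r s : Option B) :
    QD.kx V r s = (∑ j, (ext (lamV (V j)) r - ext (lamV (V j)) s).toNat) -
      (∑ j, (ext (lamV (V j)) r - ext (lamV (V j)) s)).toNat := by
  rw [QD.kx, ext_sum, ext_sum, Finset.sum_sub_distrib]

theorem kx_congr {B' : Type*} [Fintype B'] [DecidableEq B'] (V : Fin k → Finset (Option B))
    (V' : Fin k → Finset (Option B')) (r s : Option B) (r' s' : Option B')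
    (h : ∀ j, ext (lamV (V j)) r - ext (lamV (V j)) s =
      ext (lamV (V' j)) r' - ext (lamV (V' j)) s') : QD.kx V r s = QD.kx V' r' s' := by
  rw [kx_eq, kx_eq]; simp only [h]

theorem kx_zero (V : Fin k → Finset (Option B)) (r s : Option B)
    (h : (∀ j, ext (lamV (V j)) s ≤ ext (lamV (V j)) r) ∨
      (∀ j, ext (lamV (V j)) r ≤ ext (lamV (V j)) s)) : QD.kx V r s = 0 := by
  rw [kx_eq]
  rcases h with h | h
  · have : ∀ j, ((ext (lamV (V j)) r - ext (lamV (V j)) s).toNat : ℤ) =
        ext (lamV (V j)) r - ext (lamV (V j)) s := fun j =>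
      Int.toNat_of_nonneg (by linarith [h j])
    have h2 : (∑ j, (ext (lamV (V j)) r - ext (lamV (V j)) s)).toNat =
        ∑ j, (ext (lamV (V j)) r - ext (lamV (V j)) s).toNat := by
      have : (∑ j, (ext (lamV (V j)) r - ext (lamV (V j)) s)) =
          ((∑ j, (ext (lamV (V j)) r - ext (lamV (V j)) s).toNat : ℕ) : ℤ) := by
        push_cast
        exact Finset.sum_congr rfl fun j _ => (this j).symm
      rw [this, Int.toNat_natCast]
    rw [h2, Nat.sub_self]
  · have : ∀ j, (ext (lamV (V j)) r - ext (lamV (V j)) s).toNat = 0 := fun j =>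
      Int.toNat_of_nonpos (by linarith [h j])
    simp [this]

end tuples

/-! ### matching of boxes -/

section matching

variable {B B' : Type*} [Fintype B] [DecidableEq B] [Fintype B'] [DecidableEq B'] {k : ℕ}
variable {w : B → ℕ} (e : B' ≃ (b : B) × Fin (w b))

/-- main copies -/
def main (b' : B') : Prop := ((e b').2 : ℕ) = 0

instance : DecidablePred (main e) := fun b' => inferInstanceAs (Decidable (((e b').2 : ℕ) = 0))

/-- projection -/
def io (b' : B') : B := (e b').1

theorem pos_io (b' : B') : 0 < w (io e b') := Nat.lt_of_le_of_lt (Nat.zero_le _) (e b').2.2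

/-- main copy of `b` -/
def mc (b : B) (h : 0 < w b) : B' := e.symm ⟨b, ⟨0, h⟩⟩

theorem io_mc (b : B) (h : 0 < w b) : io e (mc e b h) = b := by simp [io, mc]

theorem main_mc (b : B) (h : 0 < w b) : main e (mc e b h) := by
  show ((e (e.symm ⟨b, ⟨0, h⟩⟩)).2 : ℕ) = 0
  rw [Equiv.apply_symm_apply]

theorem mc_io (b' : B') (h : main e b') (h' : 0 < w (io e b')) : mc e (io e b') h' = b' := by
  rw [mc, Equiv.symm_apply_eq]
  refine Sigma.ext rfl (heq_of_eq (Fin.ext ?_))
  exact h.symm

theorem main_inj {b b' : B'} (h : main e b) (h' : main e b') (hh : io e b = io e b') : b = b' := by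
  have h1 := mc_io e b h (pos_io e b)
  have h2 := mc_io e b' h' (pos_io e b')
  rw [← h1, ← h2]
  congr 1

/-- lift of a tuple to main copies -/
def liftS (S : Fin k → Finset B) : Fin k → Finset B' :=
  fun j => Finset.univ.filter fun b' => main e b' ∧ io e b' ∈ S j

theorem mem_liftS (S : Fin k → Finset B) (j : Fin k) (b' : B') :
    b' ∈ liftS e S j ↔ main e b' ∧ io e b' ∈ S j := by simp [liftS]

/-- lifted weight -/
def wl (b' : B') : ℕ := if main e b' then w (io e b') else 0

theorem wS_liftS {S : Fin k → Finset B} (h : wS S = w) : wS (liftS e S) = wl e := by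
  funext b'
  rw [wl]
  split_ifs with hb
  · have h2 : w (io e b') = wS S (io e b') := by rw [h]
    rw [h2, wS, wS]
    exact Finset.sum_congr rfl fun j _ => by simp [mem_liftS, hb]
  · rw [wS]
    exact Finset.sum_eq_zero fun j _ => by simp [mem_liftS, hb]

theorem pos_of_mem {S : Fin k → Finset B} {b : B} {j : Fin k} (h : b ∈ S j) : 0 < wS S b := by
  rw [wS]
  refine Finset.sum_pos' (fun _ _ => Nat.zero_le _) ⟨j, Finset.mem_univ _, ?_⟩
  simp [h]

theorem liftS_inj {S T : Fin k → Finset B} (hS : wS S = w) (hT : wS T = w)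
    (h : liftS e S = liftS e T) : S = T := by
  funext j; ext b
  constructor
  · intro hb
    have hp : 0 < w b := hS ▸ pos_of_mem hb
    have h1 : mc e b hp ∈ liftS e S j := (mem_liftS e S j _).2 ⟨main_mc e b hp, by rwa [io_mc]⟩
    rw [h, mem_liftS, io_mc] at h1
    exact h1.2
  · intro hb
    have hp : 0 < w b := hT ▸ pos_of_mem hb
    have h1 : mc e b hp ∈ liftS e T j := (mem_liftS e T j _).2 ⟨main_mc e b hp, by rwa [io_mc]⟩
    rw [← h, mem_liftS, io_mc] at h1
    exact h1.2

theorem liftS_surj {S' : Fin k → Finset B'} (h : wS S' = wl e) :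
    ∃ S : Fin k → Finset B, wS S = w ∧ liftS e S = S' := by
  have hmain : ∀ j, ∀ b' ∈ S' j, main e b' := by
    intro j b' hb
    by_contra hm
    have h1 : 0 < wS S' b' := pos_of_mem hb
    rw [h, wl, if_neg hm] at h1
    exact lt_irrefl _ h1
  let S : Fin k → Finset B := fun j => (S' j).image (io e)
  have hmem : ∀ (b : B) (hp : 0 < w b) (j : Fin k), b ∈ S j ↔ mc e b hp ∈ S' j := by
    intro b hp j
    constructor
    · intro hb
      obtain ⟨b', hb', rfl⟩ := Finset.mem_image.1 hb
      rwa [mc_io e b' (hmain j b' hb') hp]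
    · intro hb
      exact Finset.mem_image.2 ⟨_, hb, io_mc e b hp⟩
  refine ⟨S, ?_, ?_⟩
  · funext b
    rcases Nat.eq_zero_or_pos (w b) with hw | hw
    · rw [hw, wS]
      refine Finset.sum_eq_zero fun j _ => ?_
      rw [if_neg]
      intro hb
      obtain ⟨b', hb', rfl⟩ := Finset.mem_image.1 hb
      have := pos_io e b'
      omega
    · have h1 : wS S b = wS S' (mc e b hw) := by
        rw [wS, wS]
        exact Finset.sum_congr rfl fun j _ => by simp only [hmem b hw j]
      rw [h1, h, wl, if_pos (main_mc e b hw), io_mc]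
  · funext j; ext b'
    rw [mem_liftS]
    constructor
    · rintro ⟨hm, hb⟩
      rw [hmem _ (pos_io e b') j, mc_io e b' hm] at hb
      exact hb
    · intro hb
      refine ⟨hmain j b' hb, ?_⟩
      exact Finset.mem_image_of_mem _ hb

/-- extended lift relation on differences -/
theorem ext_lift (ty ty' : Fin k → Bool) (S : Fin k → Finset B) (j : Fin k) (b' : B')
    (h : main e b') :
    ext (lamV (mkV ty' (liftS e S) j)) (some b') =
      (if ty' j then 0 else 1) - (if io e b' ∈ S j then 1 else 0) := by
  rw [ext_lamV_some]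
  simp [mem_liftS, h]

theorem ext_lift_not (ty' : Fin k → Bool) (S : Fin k → Finset B) (j : Fin k) (b' : B')
    (h : ¬ main e b') :
    ext (lamV (mkV ty' (liftS e S) j)) (some b') = (if ty' j then 0 else 1) := by
  rw [ext_lamV_some]
  simp [mem_liftS, h]

end matching

end R7

end Vale.Agent.P291
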