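import Vale.Agent.P291.H598.Xfer
import Vale.Agent.P291.QBlk
import Vale.Agent.P291.TBlk
import Vale.Agent.P291.R7aBlk

/-!
# P291, block R7: transfer of exact identities
-/

set_option linter.unusedSectionVars false
set_option linter.unusedVariables false

open MvPolynomial

namespace Vale.Agent.P291

namespace R7

section reindex

variable {B : Type*} [Fintype B] [DecidableEq B] {k : ℕ} {M : Type*} [AddCommMonoid M]

theorem mkV_inj (ty : Fin k → Bool) : Function.Injective (mkV (B := B) ty) := by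
  intro S T h
  funext j
  rw [← cb_mkV ty S j, h, cb_mkV]

theorem sum_types (ty : Fin k → Bool) (f : (Fin k → Finset (Option B)) → M)
    (hf : ∀ V, f V ≠ 0 → ∀ j, (none ∈ V j ↔ ty j = true)) :
    ∑ V, f V = ∑ S, f (mkV ty S) := by
  classical
  rw [← Finset.sum_image (s := (Finset.univ : Finset (Fin k → Finset B))) (g := mkV ty)
    (f := f) (fun S _ T _ h => mkV_inj ty h)]
  symm
  apply Finset.sum_subset (Finset.subset_univ _)
  intro V _ hV
  by_contra h
  apply hV
  rw [Finset.mem_image]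
  exact ⟨fun j => cb (V j), Finset.mem_univ _, mkV_cb ty V (hf V h)⟩

theorem sum_types_filter (ty : Fin k → Bool) (p : (Fin k → Finset (Option B)) → Prop)
    [DecidablePred p] (q : (Fin k → Finset B) → Prop) [DecidablePred q]
    (hpq : ∀ S, p (mkV ty S) ↔ q S) (f : (Fin k → Finset (Option B)) → M)
    (hf : ∀ V, f V ≠ 0 → ∀ j, (none ∈ V j ↔ ty j = true)) :
    ∑ V with p V, f V = ∑ S with q S, f (mkV ty S) := by
  rw [Finset.sum_filter, Finset.sum_filter, sum_types ty (fun V => if p V then f V else 0)]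
  · exact Finset.sum_congr rfl fun S _ => by simp only [hpq]
  · intro V hV
    apply hf
    intro h
    apply hV
    simp [h]

end reindex

section transfer

variable {I E E' B B' Λ : Type*} [Fintype E] [Fintype E'] [DecidableEq I] [Fintype B]
  [DecidableEq B] [Fintype B'] [DecidableEq B'] [CommRing Λ] [IsDomain Λ]
variable {Q' : QD I E' B' Λ} {Q : QD I E B Λ} {w : B → ℕ} {e : B' ≃ (b : B) × Fin (w b)}
  {je : E' → E}

theorem wl_one_iff : (∀ b', wl e b' = 1) ↔ ∀ b, w b ≤ 1 := by
  constructor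
  · intro h b
    by_contra hb
    push Not at hb
    have h1 := h (e.symm ⟨b, ⟨1, hb⟩⟩)
    have hm : ¬ main e (e.symm ⟨b, ⟨1, hb⟩⟩) := by
      intro hm
      have : ((e (e.symm ⟨b, ⟨1, hb⟩⟩)).2 : ℕ) = 0 := hm
      rw [Equiv.apply_symm_apply] at this
      exact absurd this (by simp)
    rw [wl, if_neg hm] at h1
    exact absurd h1 (by simp)
  · intro h b'
    have hp := pos_io e b'
    have hl := h (io e b')
    have hm : main e b' := by
      have : ((e b').2 : ℕ) < w (io e b') := (e b').2.2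
      show ((e b').2 : ℕ) = 0
      omega
    rw [wl, if_pos hm]; omega

/-- coefficient of a tuple sum in the small theory -/
theorem coeff_small {k : ℕ} (ty' : Fin k → Bool) (hc : (∑ j, if ty' j then (0 : ℤ) else 1) = 1)
    (τ : (Fin k → Finset (Option B')) → SS B' Λ)
    (hτ : ∀ V, τ V ≠ 0 → ∀ j, (none ∈ V j ↔ ty' j = true)) :
    (Q'.MT k τ).coeff (fun b' => 1 - (wl e b' : ℤ)) = Q'.e (fun b' => 1 - (wl e b' : ℤ)) *
      ∑ S ∈ Finset.univ.filter (fun S : Fin k → Finset B => wS S = w),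
        toK (τ (mkV ty' (liftS e S))) * (toK (Q'.KN (mkV ty' (liftS e S))) /
          toK (Q'.KD (mkV ty' (liftS e S)))) := by
  rw [MT_coeff]
  have hiff : ∀ S' : Fin k → Finset B',
      (∑ j, lamV (mkV ty' S' j) = fun b' => 1 - (wl e b' : ℤ)) ↔ wS S' = wl e := by
    intro S'
    rw [funext_iff, funext_iff]
    refine forall_congr' fun b' => ?_
    rw [sum_lamV_mkV, hc]
    constructor
    · intro h; have : (wS S' b' : ℤ) = wl e b' := by linarith
      exact_mod_cast this
    · intro h; rw [h]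
  rw [sum_types_filter ty' (fun V => ∑ j, lamV (V j) = fun b' => 1 - (wl e b' : ℤ))
    (fun S' => wS S' = wl e) hiff]
  · rw [Finset.mul_sum]
    symm
    refine Finset.sum_bij (fun S _ => liftS e S) ?_ ?_ ?_ ?_
    · intro S hS
      rw [Finset.mem_filter] at hS ⊢
      exact ⟨Finset.mem_univ _, wS_liftS e hS.2⟩
    · intro S hS T hT h
      exact liftS_inj e (Finset.mem_filter.1 hS).2 (Finset.mem_filter.1 hT).2 h
    · intro S' hS'
      obtain ⟨S, hS, rfl⟩ := liftS_surj e (Finset.mem_filter.1 hS').2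
      exact ⟨S, Finset.mem_filter.2 ⟨Finset.mem_univ _, hS⟩, rfl⟩
    · intro S hS
      have h1 := prod_e_excess Q' (mkV ty' (liftS e S))
      rw [(hiff _).2 (wS_liftS e (Finset.mem_filter.1 hS).2)] at h1
      have h2 : toK (Q'.KD (mkV ty' (liftS e S))) ≠ 0 := toK_ne (KD_ne_zero Q' _)
      rw [eq_div_of_mul_eq h2 h1]
      ring
  · intro V hV
    apply hτ
    intro h
    apply hV
    rw [h, toK_zero, zero_mul]

theorem transfer (m : Mor Q' Q je (io e)) {N : ℕ} (kk : Fin N → ℕ)
    (ty ty' : ∀ i, Fin (kk i) → Bool) (τ : ∀ i, (Fin (kk i) → Finset (Option B')) → SS B' Λ)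
    (hτ : ∀ i V, τ i V ≠ 0 → ∀ j, (none ∈ V j ↔ ty' i j = true))
    (hc : ∀ i, (∑ j, if ty' i j then (0 : ℤ) else 1) = 1)
    (hn : ∀ i a, Q'.tgt a = none → ty' i = ty i)
    (hs : ∀ i a, (∃ a', je a' = a) ∨ (Q.tgt a = none ∧ ∀ j, ty i j = true))
    (hsum : ∑ i, Q'.MT (kk i) (τ i) = QD.cst 1) :
    ∑ i, ∑ S ∈ Finset.univ.filter (fun S : Fin (kk i) → Finset B => wS S = w),
      toK (rename (io e) (τ i (mkV (ty' i) (liftS e S)))) *
        (toK (Q.KN (mkV (ty i) S)) / toK (Q.KD (mkV (ty i) S))) =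
      if ∀ b, w b ≤ 1 then 1 else 0 := by
  -- the identity in the small theory
  have h1 : ∑ i, ∑ S ∈ Finset.univ.filter (fun S : Fin (kk i) → Finset B => wS S = w),
      toK (τ i (mkV (ty' i) (liftS e S))) * (toK (Q'.KN (mkV (ty' i) (liftS e S))) /
          toK (Q'.KD (mkV (ty' i) (liftS e S)))) = if ∀ b, w b ≤ 1 then 1 else 0 := by
    have h2 := congrArg (fun z : AA B' Λ => z.coeff (fun b' => 1 - (wl e b' : ℤ))) hsum
    rw [AddMonoidAlgebra.coeff_sum, Finsupp.finsetSum_apply] at h2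
    rw [Finset.sum_congr rfl fun i _ => coeff_small (e := e) (Q' := Q') (ty' i) (hc i) (τ i) (hτ i),
      ← Finset.mul_sum] at h2
    have h3 : ((QD.cst 1 : AA B' Λ)).coeff (fun b' => 1 - (wl e b' : ℤ)) =
        if ∀ b, w b ≤ 1 then 1 else 0 := by
      rw [QD.cst, AddMonoidAlgebra.coeff_single, Finsupp.single_apply, toK_one]
      have hiff : (0 : B' → ℤ) = (fun b' => 1 - (wl e b' : ℤ)) ↔ ∀ b, w b ≤ 1 := by
        rw [← wl_one_iff (e := e), funext_iff]
        refine forall_congr' fun b' => ?_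
        rw [Pi.zero_apply]
        omega
      by_cases h : ∀ b, w b ≤ 1
      · rw [if_pos h, if_pos (hiff.2 h)]
      · rw [if_neg h, if_neg (fun h' => h (hiff.1 h'))]
    rw [h3] at h2
    by_cases h : ∀ b, w b ≤ 1
    · rw [if_pos h] at h2 ⊢
      have h4 : (fun b' => 1 - (wl e b' : ℤ)) = 0 := by
        funext b'
        rw [(wl_one_iff (e := e)).2 h b']; simp
      rw [h4, e_zero, one_mul] at h2
      exact h2
    · rw [if_neg h] at h2 ⊢
      exact (mul_eq_zero.1 h2).resolve_left (e_ne_zero Q' _)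
  -- apply the substitution
  have h2 : Rel (io e) (∑ i, ∑ S ∈ Finset.univ.filter (fun S : Fin (kk i) → Finset B => wS S = w),
      toK (τ i (mkV (ty' i) (liftS e S))) * (toK (Q'.KN (mkV (ty' i) (liftS e S))) /
          toK (Q'.KD (mkV (ty' i) (liftS e S)))))
      (∑ i, ∑ S ∈ Finset.univ.filter (fun S : Fin (kk i) → Finset B => wS S = w),
      toK (rename (io e) (τ i (mkV (ty' i) (liftS e S)))) *
        (toK (Q.KN (mkV (ty i) S)) / toK (Q.KD (mkV (ty i) S)))) := by
    refine Rel.sum _ fun i _ => Rel.sum _ fun S hS => (Rel.ofK _).mul ?_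
    have hS' := (Finset.mem_filter.1 hS).2
    have hKD := rename_KD m (ty i) (ty' i) hS'
    rw [← rename_KN m (ty i) (ty' i) hS' (hn i) (hs i), ← hKD]
    apply Rel.div
    rw [hKD]
    exact KD_ne_zero Q _
  rw [h1] at h2
  refine h2.unique ?_
  split_ifs
  · exact Rel.one
  · exact Rel.zero

end transfer

end R7

end Vale.Agent.P291
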