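import Vale.Agent.P291.H598.Match

/-!
# P291, block R7: transfer of the excess factors along a matching
-/

set_option linter.unusedSectionVars false
set_option linter.unusedVariables false

open MvPolynomial

namespace Vale.Agent.P291

namespace R7

section rel

variable {B B' Λ : Type*} [CommRing Λ] [IsDomain Λ]

/-- `g` is the image of `f` under the substitution `X b' ↦ X (f b')` -/
def Rel (io : B' → B) (f : KK B' Λ) (g : KK B Λ) : Prop :=
  ∃ a b : SS B' Λ, rename io b ≠ 0 ∧ f * toK b = toK a ∧ g * toK (rename io b) = toK (rename io a)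

theorem toK_inj {B Λ : Type*} [CommRing Λ] [IsDomain Λ] {f g : SS B Λ} (h : toK f = toK g) :
    f = g := IsFractionRing.injective (SS B Λ) (KK B Λ) h

theorem toK_ne {B Λ : Type*} [CommRing Λ] [IsDomain Λ] {f : SS B Λ} (h : f ≠ 0) :
    toK f ≠ 0 := fun h' => h (toK_inj (by rw [h', toK, map_zero]))

theorem toK_mul {B Λ : Type*} [CommRing Λ] (f g : SS B Λ) :
    toK (f * g) = toK f * toK g := map_mul _ _ _

theorem toK_add {B Λ : Type*} [CommRing Λ] (f g : SS B Λ) :
    toK (f + g) = toK f + toK g := map_add _ _ _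

theorem toK_one {B Λ : Type*} [CommRing Λ] : toK (1 : SS B Λ) = 1 := map_one _

theorem toK_zero {B Λ : Type*} [CommRing Λ] : toK (0 : SS B Λ) = 0 := map_zero _

variable {io : B' → B}

theorem Rel.add {f f' : KK B' Λ} {g g' : KK B Λ} (h : Rel io f g) (h' : Rel io f' g') :
    Rel io (f + f') (g + g') := by
  obtain ⟨a, b, hb, h1, h2⟩ := h
  obtain ⟨a', b', hb', h1', h2'⟩ := h'
  refine ⟨a * b' + a' * b, b * b', by rw [map_mul]; exact mul_ne_zero hb hb', ?_, ?_⟩
  · rw [toK_mul, toK_add, toK_mul, toK_mul, ← h1, ← h1']; ring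
  · rw [map_mul, map_add, map_mul, map_mul, toK_mul, toK_add, toK_mul, toK_mul, ← h2, ← h2']; ring

theorem Rel.mul {f f' : KK B' Λ} {g g' : KK B Λ} (h : Rel io f g) (h' : Rel io f' g') :
    Rel io (f * f') (g * g') := by
  obtain ⟨a, b, hb, h1, h2⟩ := h
  obtain ⟨a', b', hb', h1', h2'⟩ := h'
  refine ⟨a * a', b * b', by rw [map_mul]; exact mul_ne_zero hb hb', ?_, ?_⟩
  · rw [toK_mul, toK_mul, ← h1, ← h1']; ring
  · rw [map_mul, map_mul, toK_mul, toK_mul, ← h2, ← h2']; ring

theorem Rel.ofK (a : SS B' Λ) : Rel io (toK a) (toK (rename io a)) :=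
  ⟨a, 1, by rw [map_one]; exact one_ne_zero, by rw [toK_one, mul_one],
    by rw [map_one, toK_one, mul_one]⟩

theorem Rel.zero : Rel io (0 : KK B' Λ) (0 : KK B Λ) := by
  have := Rel.ofK (io := io) (0 : SS B' Λ)
  rwa [map_zero, toK_zero, toK_zero] at this

theorem Rel.one : Rel io (1 : KK B' Λ) (1 : KK B Λ) := by
  have := Rel.ofK (io := io) (1 : SS B' Λ)
  rwa [map_one, toK_one, toK_one] at this

theorem Rel.div (a b : SS B' Λ) (hb : rename io b ≠ 0) :
    Rel io (toK a / toK b) (toK (rename io a) / toK (rename io b)) := by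
  have hb' : b ≠ 0 := fun h => hb (by rw [h, map_zero])
  exact ⟨a, b, hb, div_mul_cancel₀ _ (toK_ne hb'), div_mul_cancel₀ _ (toK_ne hb)⟩

theorem Rel.sum {ι : Type*} (s : Finset ι) {f : ι → KK B' Λ} {g : ι → KK B Λ}
    (h : ∀ i ∈ s, Rel io (f i) (g i)) : Rel io (∑ i ∈ s, f i) (∑ i ∈ s, g i) := by
  classical
  induction s using Finset.induction_on with
  | empty => simpa using Rel.zero
  | insert i s hi ih =>
    rw [Finset.sum_insert hi, Finset.sum_insert hi]
    exact (h i (Finset.mem_insert_self _ _)).add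
      (ih fun j hj => h j (Finset.mem_insert_of_mem hj))

theorem Rel.unique {f : KK B' Λ} {g g' : KK B Λ} (h : Rel io f g) (h' : Rel io f g') : g = g' := by
  obtain ⟨a, b, hb, h1, h2⟩ := h
  obtain ⟨a', b', hb', h1', h2'⟩ := h'
  have h3 : a * b' = a' * b := by
    apply toK_inj
    rw [toK_mul, toK_mul, ← h1, ← h1']; ring
  have h4 : rename io a * rename io b' = rename io a' * rename io b := by
    rw [← map_mul, h3, map_mul]
  have h5 : g * toK (rename io b) * toK (rename io b') =
      g' * toK (rename io b) * toK (rename io b') := by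
    rw [h2, mul_assoc g', mul_comm (toK (rename io b)), ← mul_assoc, h2', ← toK_mul, ← toK_mul, h4]
  exact mul_right_cancel₀ (toK_ne hb) (mul_right_cancel₀ (toK_ne hb') h5)

end rel

section xfer

variable {I E E' B B' Λ : Type*} [Fintype E] [Fintype E'] [DecidableEq I] [Fintype B]
  [DecidableEq B] [Fintype B'] [DecidableEq B'] [CommRing Λ] [IsDomain Λ] {k : ℕ}
variable (Q' : QD I E' B' Λ) (Q : QD I E B Λ)

/-- compatible map of quiver data -/
structure Mor (je : E' → E) (f : B' → B) : Prop where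
  inj : Function.Injective je
  src : ∀ a, Q.src (je a) = Q'.src a
  tgt : ∀ a, Q.tgt (je a) = Q'.tgt a
  t : ∀ a, Q.t (je a) = Q'.t a
  vx : ∀ b, Q.vx (f b) = Q'.vx b

theorem KD_ne_zero (V : Fin k → Finset (Option B)) : Q.KD V ≠ 0 := by
  rw [QD.KD, Finset.prod_ne_zero_iff]
  rintro ⟨r, s⟩ _
  rcases eq_or_ne r s with rfl | h
  · rw [kx_zero V _ _ (Or.inl fun j => le_rfl), pow_zero]; exact one_ne_zero
  · exact pow_ne_zero _ (sub_ne_zero.2 fun h' => h (MvPolynomial.X_injective h'))

variable {Q' Q} {w : B → ℕ} {e : B' ≃ (b : B) × Fin (w b)} {je : E' → E}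

theorem rename_xi (m : Mor Q' Q je (io e)) (p : E' × B' × Option B') :
    rename (io e) (Q'.xi p) = Q.xi (je p.1, io e p.2.1, p.2.2.map (io e)) := by
  obtain ⟨a, r, s⟩ := p
  rcases s with _ | s
  · simp [QD.xi, xo, m.t]
  · simp [QD.xi, xo, m.t]

/-- vanishing of the excess exponent off the main copies -/
theorem kx_main (ty' : Fin k → Bool) (S : Fin k → Finset B) (r : B') (s : Option B')
    (h : QD.kx (mkV ty' (liftS e S)) (some r) s ≠ 0) :
    main e r ∧ ∀ s', s = some s' → main e s' := by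
  constructor
  · by_contra hr
    apply h
    apply kx_zero
    left
    intro j
    rw [ext_lift_not e ty' S j r hr]
    rcases s with _ | s
    · rw [ext_lamV_none]; split_ifs <;> decide
    · rw [ext_lamV_some]; split_ifs <;> simp
  · rintro s' rfl
    by_contra hs
    apply h
    apply kx_zero
    right
    intro j
    rw [ext_lift_not e ty' S j s' hs, ext_lamV_some]
    split_ifs <;> simp

theorem kx_pos (ty : Fin k → Bool) {S : Fin k → Finset B} (hS : wS S = w) (r : B)
    (s : Option B) (h : QD.kx (mkV ty S) (some r) s ≠ 0) :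
    0 < w r ∧ ∀ s', s = some s' → 0 < w s' := by
  have key : ∀ b, ¬ 0 < w b → ∀ j, ext (lamV (mkV ty S j)) (some b) = if ty j then 0 else 1 := by
    intro b hb j
    rw [ext_lamV_some, if_neg (fun h' => hb (hS ▸ pos_of_mem h')), sub_zero]
  constructor
  · by_contra hr
    apply h
    apply kx_zero
    left
    intro j
    rw [key r hr j]
    rcases s with _ | s
    · rw [ext_lamV_none]; split_ifs <;> decide
    · rw [ext_lamV_some]; split_ifs <;> simp
  · rintro s' rfl
    by_contra hs
    apply h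
    apply kx_zero
    right
    intro j
    rw [key s' hs j, ext_lamV_some]
    split_ifs <;> simp

theorem kx_box (ty ty' : Fin k → Bool) (S : Fin k → Finset B) (r s : B') (hr : main e r)
    (hs : main e s) : QD.kx (mkV ty' (liftS e S)) (some r) (some s) =
      QD.kx (mkV ty S) (some (io e r)) (some (io e s)) := by
  apply kx_congr
  intro j
  rw [ext_lift e ty ty' S j r hr, ext_lift e ty ty' S j s hs, ext_lamV_some, ext_lamV_some]
  ring

theorem kx_fr (ty : Fin k → Bool) (S : Fin k → Finset B) (r : B') (hr : main e r) :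
    QD.kx (mkV ty (liftS e S)) (some r) none = QD.kx (mkV ty S) (some (io e r)) none := by
  apply kx_congr
  intro j
  rw [ext_lift e ty ty S j r hr, ext_lamV_some, ext_lamV_none, ext_lamV_none]

theorem ne_of_ren {f : B' → B} {x : SS B' Λ} {n : ℕ} (h : rename f (x ^ n) ≠ 1) : n ≠ 0 := by
  rintro rfl
  exact h (by rw [pow_zero, map_one])

theorem ne_of_pow {x : SS B Λ} {n : ℕ} (h : x ^ n ≠ 1) : n ≠ 0 := by
  rintro rfl
  exact h (pow_zero _)

theorem rename_KN (m : Mor Q' Q je (io e)) (ty ty' : Fin k → Bool) {S : Fin k → Finset B}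
    (hS : wS S = w) (hn : ∀ a, Q'.tgt a = none → ty' = ty)
    (hs : ∀ a, (∃ a', je a' = a) ∨ (Q.tgt a = none ∧ ∀ j, ty j = true)) :
    rename (io e) (Q'.KN (mkV ty' (liftS e S))) = Q.KN (mkV ty S) := by
  rw [QD.KN, QD.KN, map_prod]
  have hkx : ∀ p ∈ Q'.Wt, QD.kx (mkV ty' (liftS e S)) (some p.2.1) p.2.2 ≠ 0 →
      QD.kx (mkV ty' (liftS e S)) (some p.2.1) p.2.2 =
        QD.kx (mkV ty S) (some (io e p.2.1)) (p.2.2.map (io e)) := by
    rintro ⟨a, r, s⟩ hp h
    obtain ⟨hr, hs'⟩ := kx_main ty' S r s h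
    rcases s with _ | s
    · have ha : Q'.tgt a = none := by
        have := (Finset.mem_filter.1 hp).2.2
        exact this.symm
      have hty := hn a ha
      subst hty
      exact kx_fr ty' S r hr
    · exact kx_box ty ty' S r s hr (hs' s rfl)
  refine Finset.prod_bij_ne_one (fun p _ _ => (je p.1, io e p.2.1, p.2.2.map (io e))) ?_ ?_ ?_ ?_
  · rintro ⟨a, r, s⟩ hp _
    rw [QD.Wt, Finset.mem_filter] at hp ⊢
    refine ⟨Finset.mem_univ _, ?_, ?_⟩
    · show Q.vx (io e r) = Q.src (je a)
      rw [m.vx, m.src]; exact hp.2.1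
    · show Q.vo (s.map (io e)) = Q.tgt (je a)
      rw [m.tgt, ← hp.2.2]
      rcases s with _ | s
      · rfl
      · show some (Q.vx (io e s)) = some (Q'.vx s)
        rw [m.vx]
  · rintro ⟨a, r, s⟩ hp h ⟨a2, r2, s2⟩ hp2 h2 heq
    have hne1 : QD.kx (mkV ty' (liftS e S)) (some r) s ≠ 0 := ne_of_ren h
    have hne2 : QD.kx (mkV ty' (liftS e S)) (some r2) s2 ≠ 0 := ne_of_ren h2
    obtain ⟨hr, hs1⟩ := kx_main ty' S r s hne1
    obtain ⟨hr2, hs2⟩ := kx_main ty' S r2 s2 hne2
    simp only [Prod.mk.injEq] at heq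
    obtain ⟨h3, h4, h5⟩ := heq
    have e1 : a = a2 := m.inj h3
    have e2 : r = r2 := main_inj e hr hr2 h4
    have e3 : s = s2 := by
      rcases s with _ | s <;> rcases s2 with _ | s2
      · rfl
      · simp at h5
      · simp at h5
      · simp only [Option.map_some, Option.some.injEq] at h5
        rw [main_inj e (hs1 s rfl) (hs2 s2 rfl) h5]
    rw [e1, e2, e3]
  · rintro ⟨a, r, s⟩ hp h
    have hne : QD.kx (mkV ty S) (some r) s ≠ 0 := ne_of_pow h
    obtain ⟨hr, hs1⟩ := kx_pos ty hS r s hne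
    rw [QD.Wt, Finset.mem_filter] at hp
    obtain ⟨-, hp1, hp2⟩ := hp
    have ha : ∃ a', je a' = a := by
      rcases hs a with ha | ⟨ha, hty⟩
      · exact ha
      · exfalso
        rcases s with _ | s
        · apply hne
          apply kx_zero
          right
          intro j
          rw [ext_lamV_some, ext_lamV_none, hty j, if_pos rfl]
          split_ifs <;> simp
        · have hp2' : Q.vo (some s) = Q.tgt a := hp2
          rw [ha] at hp2'
          exact absurd hp2' (by simp [QD.vo])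
    obtain ⟨a', rfl⟩ := ha
    obtain ⟨s0, hs0, hs0m⟩ : ∃ s0 : Option B', s0.map (io e) = s ∧
        ∀ s', s0 = some s' → main e s' := by
      rcases s with _ | s'
      · exact ⟨none, rfl, fun s' h' => by simp at h'⟩
      · refine ⟨some (mc e s' (hs1 s' rfl)), ?_, ?_⟩
        · show some (io e (mc e s' _)) = some s'
          rw [io_mc]
        · intro s'' h'
          rw [← Option.some.inj h']; exact main_mc e _ _
    have hmem : (a', mc e r hr, s0) ∈ Q'.Wt := by
      rw [QD.Wt, Finset.mem_filter]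
      refine ⟨Finset.mem_univ _, ?_, ?_⟩
      · show Q'.vx (mc e r hr) = Q'.src a'
        rw [← m.vx, io_mc, ← m.src]; exact hp1
      · show Q'.vo s0 = Q'.tgt a'
        rw [← m.tgt]
        have hp2' : Q.vo s = Q.tgt (je a') := hp2
        rw [← hp2', ← hs0]
        rcases s0 with _ | s0
        · rfl
        · show some (Q'.vx s0) = some (Q.vx (io e s0))
          rw [m.vx]
    have hkeq : QD.kx (mkV ty' (liftS e S)) (some (mc e r hr)) s0 = QD.kx (mkV ty S) (some r) s := by
      by_cases h0 : s0 = none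
      · have hs' : s = none := by rw [← hs0, h0]; rfl
        have ht : Q'.tgt a' = none := by
          have := (Finset.mem_filter.1 hmem).2.2
          rw [← this]
          show Q'.vo s0 = none
          rw [h0]; rfl
        have hty := hn a' ht
        subst hty
        rw [h0, hs', kx_fr ty' S _ (main_mc e r hr), io_mc]
      · obtain ⟨s1, hs1'⟩ := Option.ne_none_iff_exists'.1 h0
        rw [← hs0, hs1', kx_box ty ty' S _ _ (main_mc e r hr) (hs0m s1 hs1'), io_mc]
        rfl
    refine ⟨(a', mc e r hr, s0), hmem, ?_, ?_⟩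
    · show rename (io e) (Q'.xi (a', mc e r hr, s0) ^
        QD.kx (mkV ty' (liftS e S)) (some (mc e r hr)) s0) ≠ 1
      rw [map_pow, rename_xi m, hkeq]
      simp only [io_mc, hs0]
      exact h
    · simp only [io_mc, hs0]
  · rintro ⟨a, r, s⟩ hp h
    have hne : QD.kx (mkV ty' (liftS e S)) (some r) s ≠ 0 := ne_of_ren h
    rw [map_pow, rename_xi m, hkx _ hp hne]

theorem rename_KD (m : Mor Q' Q je (io e)) (ty ty' : Fin k → Bool) {S : Fin k → Finset B}
    (hS : wS S = w) :
    rename (io e) (Q'.KD (mkV ty' (liftS e S))) = Q.KD (mkV ty S) := by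
  rw [QD.KD, QD.KD, map_prod]
  refine Finset.prod_bij_ne_one (fun p _ _ => (io e p.1, io e p.2)) ?_ ?_ ?_ ?_
  · rintro ⟨r, s⟩ hp _
    rw [QD.Prs, Finset.mem_filter] at hp ⊢
    refine ⟨Finset.mem_univ _, ?_⟩
    show Q.vx (io e r) = Q.vx (io e s)
    rw [m.vx, m.vx]; exact hp.2
  · rintro ⟨r, s⟩ hp h ⟨r2, s2⟩ hp2 h2 heq
    have hne1 : QD.kx (mkV ty' (liftS e S)) (some r) (some s) ≠ 0 := ne_of_ren h
    have hne2 : QD.kx (mkV ty' (liftS e S)) (some r2) (some s2) ≠ 0 := ne_of_ren h2
    obtain ⟨hr, hs1⟩ := kx_main ty' S r (some s) hne1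
    obtain ⟨hr2, hs2⟩ := kx_main ty' S r2 (some s2) hne2
    simp only [Prod.mk.injEq] at heq
    rw [main_inj e hr hr2 heq.1, main_inj e (hs1 s rfl) (hs2 s2 rfl) heq.2]
  · rintro ⟨r, s⟩ hp h
    have hne : QD.kx (mkV ty S) (some r) (some s) ≠ 0 := ne_of_pow h
    obtain ⟨hr, hs1⟩ := kx_pos ty hS r (some s) hne
    have hs := hs1 s rfl
    rw [QD.Prs, Finset.mem_filter] at hp
    have hmem : (mc e r hr, mc e s hs) ∈ Q'.Prs := by
      rw [QD.Prs, Finset.mem_filter]
      refine ⟨Finset.mem_univ _, ?_⟩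
      show Q'.vx (mc e r hr) = Q'.vx (mc e s hs)
      rw [← m.vx, ← m.vx, io_mc, io_mc]; exact hp.2
    refine ⟨(mc e r hr, mc e s hs), hmem, ?_, ?_⟩
    · show rename (io e) ((X (mc e r hr) - X (mc e s hs) : SS B' Λ) ^
        QD.kx (mkV ty' (liftS e S)) (some (mc e r hr)) (some (mc e s hs))) ≠ 1
      rw [map_pow, map_sub, rename_X, rename_X,
        kx_box ty ty' S _ _ (main_mc e r hr) (main_mc e s hs), io_mc, io_mc]
      exact h
    · simp only [io_mc]
  · rintro ⟨r, s⟩ hp h
    have hne : QD.kx (mkV ty' (liftS e S)) (some r) (some s) ≠ 0 := ne_of_ren h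
    obtain ⟨hr, hs1⟩ := kx_main ty' S r (some s) hne
    show rename (io e) ((X r - X s : SS B' Λ) ^
        QD.kx (mkV ty' (liftS e S)) (some r) (some s)) = _
    rw [map_pow, map_sub, rename_X, rename_X, kx_box ty ty' S r s hr (hs1 s rfl)]

end xfer

end R7

end Vale.Agent.P291
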